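import Vale.Agent.P050.R2.H300.Defs
import Vale.Agent.P050.R4.H998.GasLog

set_option autoImplicit false
set_option linter.all false

/-!
# M1: the abstract gas in the form of the plan (helper300)
-/

open Finset

namespace Vale.Agent.P050.Dense

open Vale.Agent.P050
variable {V : Type*} [Fintype V] [DecidableEq V]

open Vale.Agent.P050.R4.H998 (nb IsComp cg exists_comp comp_unique)

/-- cut form of connectedness -/
abbrev CnC (adj : V → V → Prop) (g : Finset V) : Prop := Vale.Agent.P050.R4.H998.Conn adj g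

/-- adjacency inside `B` -/
def adB (G : SimpleGraph V) (B : Finset V) (u v : V) : Prop := G.Adj u v ∧ u ∈ B ∧ v ∈ B

lemma adB_symm (G : SimpleGraph V) (B : Finset V) (u v : V) (h : adB G B u v) : adB G B v u :=
  ⟨h.1.symm, h.2.2, h.2.1⟩

lemma conn_iff (G : SimpleGraph V) {B g : Finset V} (hg : g ⊆ B) :
    CnC (adB G B) g ↔ Cn G g := by
  classical
  constructor
  · rintro ⟨hne, h⟩
    refine ⟨hne, fun u hu v hv => ?_⟩
    by_contra hn
    obtain ⟨a, ha, c, hc, hac⟩ := h (g.filter fun w => (Gr G g).Reachable u w) (filter_subset _ _)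
      ⟨u, mem_filter.2 ⟨hu, SimpleGraph.Reachable.refl u⟩⟩
      (fun h1 => by
        rw [← h1, mem_filter] at hv
        exact hn hv.2)
    rw [mem_filter] at ha
    rw [mem_sdiff, mem_filter] at hc
    refine hc.2 ⟨hc.1, ha.2.trans (SimpleGraph.Adj.reachable ?_)⟩
    exact ⟨hac.1, ha.1, hc.1⟩
  · rintro ⟨hne, h⟩
    refine ⟨hne, fun s hs hsn hne' => ?_⟩
    obtain ⟨u, hu⟩ := hsn
    obtain ⟨v, hv, hvs⟩ : ∃ v ∈ g, v ∉ s := by
      by_contra h1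
      push Not at h1
      exact hne' (Subset.antisymm hs h1)
    obtain ⟨w⟩ := h u (hs hu) v hv
    obtain ⟨d, hd, h1, h2⟩ := w.exists_boundary_dart (s : Set V) (mem_coe.2 hu)
      (fun h3 => hvs (mem_coe.1 h3))
    have h3 := d.adj
    refine ⟨d.fst, mem_coe.1 h1, d.snd, mem_sdiff.2 ⟨h3.2.2, fun h4 => h2 (mem_coe.2 h4)⟩, ?_⟩
    exact ⟨h3.1, hg h3.2.1, hg h3.2.2⟩

open scoped Classical in
lemma nb_card_le (G : SimpleGraph V) {B g : Finset V} (hg : g ⊆ B) {Δ : ℕ}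
    (hΔ : ∀ b ∈ B, (nbr G B b).card ≤ Δ) : (nb (adB G B) g).card ≤ (Δ + 1) * g.card := by
  have h1 : nb (adB G B) g ⊆ g.biUnion fun b => insert b (nbr G B b) := by
    intro x hx
    rw [nb, mem_filter] at hx
    rw [mem_biUnion]
    rcases hx.2 with h | ⟨a, ha, h⟩
    · exact ⟨x, h, mem_insert_self _ _⟩
    · refine ⟨a, ha, mem_insert_of_mem ?_⟩
      rw [nbr, mem_filter]
      exact ⟨h.2.2, h.1⟩
  calc _ ≤ (g.biUnion fun b => insert b (nbr G B b)).card := card_le_card h1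
    _ ≤ ∑ b ∈ g, (insert b (nbr G B b)).card := card_biUnion_le
    _ ≤ ∑ _b ∈ g, (Δ + 1) := by
        refine Finset.sum_le_sum fun b hb => (card_insert_le _ _).trans ?_
        exact Nat.succ_le_succ (hΔ b (hg hb))
    _ = _ := by rw [sum_const, smul_eq_mul, mul_comm]

lemma mem_cnS {G : SimpleGraph V} {B : Finset V} {P : Finset V → Prop} {γ : Finset V} :
    γ ∈ cnS G B P ↔ γ ⊆ B ∧ Cn G γ ∧ P γ := by
  simp only [cnS, mem_filter, mem_powerset]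

/-- the activity cut off outside `B` -/
def eB (B : Finset V) (φ : Finset V → ℝ) (S : Finset V) : ℝ := if S ⊆ B then φ S else 0

lemma ZZ_eB {B : Finset V} {φ Z : Finset V → ℝ}
    (hZ : ∀ Λ ⊆ B, Z Λ = ∑ β ∈ Λ.powerset, φ β) (L : Finset V) :
    Vale.Agent.P050.R4.H998.ZZ (eB B φ) L = Z (L ∩ B) := by
  unfold Vale.Agent.P050.R4.H998.ZZ
  rw [hZ _ inter_subset_right]
  symm
  refine Finset.sum_subset_zero_on_sdiff (powerset_mono.2 inter_subset_left) ?_ ?_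
  · intro S hS
    rw [mem_sdiff, mem_powerset, mem_powerset] at hS
    unfold eB
    rw [if_neg]
    exact fun h => hS.2 (subset_inter hS.1 h)
  · intro S hS
    rw [mem_powerset] at hS
    unfold eB
    rw [if_pos (hS.trans inter_subset_right)]

section
variable {G : SimpleGraph V} {φ Z : Finset V → ℝ} {B : Finset V} {σ : ℝ} {Δ : ℕ}

lemma eB_mul (hφ : ∀ γ ⊆ B, ∀ β ⊆ B, Disjoint γ β → (∀ b ∈ γ, ∀ b' ∈ β, ¬ G.Adj b b') →
      φ (γ ∪ β) = φ γ * φ β) (S R : Finset V) (hd : Disjoint S R)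
    (h : ∀ a ∈ S, ∀ c ∈ R, ¬ adB G B a c) : eB B φ (S ∪ R) = eB B φ S * eB B φ R := by
  unfold eB
  by_cases hS : S ⊆ B
  · by_cases hR : R ⊆ B
    · rw [if_pos (union_subset hS hR), if_pos hS, if_pos hR]
      exact hφ S hS R hR hd fun b hb b' hb' hadj => h b hb b' hb' ⟨hadj, hS hb, hR hb'⟩
    · rw [if_neg (fun h1 => hR (subset_union_right.trans h1)), if_neg hR, mul_zero]
  · rw [if_neg (fun h1 => hS (subset_union_left.trans h1)), if_neg hS, zero_mul]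

lemma eB_step (hZ : ∀ Λ ⊆ B, Z Λ = ∑ β ∈ Λ.powerset, φ β)
    (hpos : ∀ Λ ⊆ B, 0 < Z Λ)
    (hr : ∀ Λ ⊆ B, ∀ b ∈ B, b ∉ Λ → |Z (insert b Λ) - Z Λ| ≤ σ * Z Λ)
    (hσ0 : 0 ≤ σ) : Vale.Agent.P050.R4.H998.Step σ (eB B φ) := by
  intro L b hb
  rw [ZZ_eB hZ, ZZ_eB hZ]
  by_cases hbB : b ∈ B
  · rw [insert_inter_of_mem hbB]
    exact hr _ inter_subset_right b hbB fun h => hb (mem_inter.1 h).1
  · rw [insert_inter_of_notMem hbB, sub_self, abs_zero]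
    exact mul_nonneg hσ0 (hpos _ inter_subset_right).le

lemma pow_le_exp_aux (hσ0 : 0 ≤ σ) (hσ1 : σ ≤ 1 / 8) {n m : ℕ} (hn : n ≤ m) :
    ((1 - σ) ^ n)⁻¹ ≤ Real.exp (2 * σ * m) := by
  have h1 : (1 - σ)⁻¹ ≤ Real.exp (2 * σ) := by
    have h2 : (1 - σ)⁻¹ ≤ 1 + 2 * σ := by
      rw [inv_le_iff_one_le_mul₀ (by linarith)]
      nlinarith
    linarith [Real.add_one_le_exp (2 * σ)]
  calc ((1 - σ) ^ n)⁻¹ = ((1 - σ)⁻¹) ^ n := by rw [inv_pow]
    _ ≤ (Real.exp (2 * σ)) ^ n := pow_le_pow_left₀ (inv_nonneg.2 (by linarith)) h1 n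
    _ ≤ (Real.exp (2 * σ)) ^ m := pow_le_pow_right₀ (Real.one_le_exp (by linarith)) hn
    _ = _ := by rw [← Real.exp_nat_mul]; congr 1; ring

lemma exp_le_pow_aux (hσ0 : 0 ≤ σ) {n m : ℕ} (hn : n ≤ m) :
    Real.exp (-(2 * σ * m)) ≤ ((1 + σ) ^ n)⁻¹ := by
  rw [Real.exp_neg]
  refine inv_anti₀ (by positivity) ?_
  calc (1 + σ) ^ n ≤ (Real.exp (2 * σ)) ^ n := by
        refine pow_le_pow_left₀ (by linarith) ?_ n
        linarith [Real.add_one_le_exp (2 * σ)]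
    _ ≤ (Real.exp (2 * σ)) ^ m := pow_le_pow_right₀ (Real.one_le_exp (by linarith)) hn
    _ = _ := by rw [← Real.exp_nat_mul]; congr 1; ring

end

open scoped Classical in
theorem gas (G : SimpleGraph V) (φ Z : Finset V → ℝ) (B : Finset V) (σ : ℝ) (Δ : ℕ)
    (hφ0 : φ ∅ = 1)
    (hφ : ∀ γ ⊆ B, ∀ β ⊆ B, Disjoint γ β → (∀ b ∈ γ, ∀ b' ∈ β, ¬ G.Adj b b') →
      φ (γ ∪ β) = φ γ * φ β)
    (hZ : ∀ Λ ⊆ B, Z Λ = ∑ β ∈ Λ.powerset, φ β)
    (hpos : ∀ Λ ⊆ B, 0 < Z Λ)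
    (hr : ∀ Λ ⊆ B, ∀ b ∈ B, b ∉ Λ → |Z (insert b Λ) - Z Λ| ≤ σ * Z Λ)
    (hσ0 : 0 ≤ σ) (hσ1 : σ ≤ 1 / 8)
    (hΔ : ∀ b ∈ B, (nbr G B b).card ≤ Δ)
    (P : Finset V → Prop) (hP : ∀ γ ⊆ B, P γ → 0 ≤ φ γ) :
    (1 - 2 * σ) * (∑ γ ∈ cnS G B P, Real.exp (-(2 * σ * (Δ + 1) * γ.card)) * φ γ) -
      (1 + 2 * σ) * (∑ γ ∈ cnS G B (fun γ => ¬ P γ),
        Real.exp (2 * σ * (Δ + 1) * γ.card) * |φ γ|) ≤ Real.log (Z B) := by
  have h0 : eB B φ ∅ = 1 := by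
    unfold eB
    rw [if_pos (empty_subset B), hφ0]
  have hkey := Vale.Agent.P050.R4.H998.log_ZZ_ge (adj := adB G B) (s := σ) (e := eB B φ)
    (adB_symm G B) (eB_mul hφ) h0 hσ0 (by linarith) (eB_step hZ hpos hr hσ0) B
  rw [ZZ_eB hZ, inter_self] at hkey
  refine le_trans ?_ hkey
  -- split the sum
  have hfil : B.powerset.filter (CnC (adB G B)) =
      cnS G B P ∪ cnS G B (fun γ => ¬ P γ) := by
    ext g
    rw [mem_union, mem_filter, mem_powerset, mem_cnS, mem_cnS]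
    constructor
    · rintro ⟨h1, h2⟩
      rw [conn_iff G h1] at h2
      by_cases h3 : P g
      · exact Or.inl ⟨h1, h2, h3⟩
      · exact Or.inr ⟨h1, h2, h3⟩
    · rintro (⟨h1, h2, _⟩ | ⟨h1, h2, _⟩) <;> exact ⟨h1, (conn_iff G h1).2 h2⟩
  have hdis : Disjoint (cnS G B P) (cnS G B (fun γ => ¬ P γ)) := by
    rw [Finset.disjoint_left]
    intro g hg hg'
    rw [mem_cnS] at hg hg'
    exact hg'.2.2 hg.2.2
  rw [hfil, sum_union hdis, sub_eq_add_neg, Finset.mul_sum, Finset.mul_sum,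
    ← Finset.sum_neg_distrib]
  refine add_le_add (Finset.sum_le_sum fun g hg => ?_) (Finset.sum_le_sum fun g hg => ?_)
  · rw [mem_cnS] at hg
    have hpos' := hP g hg.1 hg.2.2
    have hn := nb_card_le G hg.1 hΔ
    have h1 := exp_le_pow_aux hσ0 hn
    have hc : (2 * σ * (((Δ + 1) * g.card : ℕ) : ℝ)) = 2 * σ * (Δ + 1) * g.card := by
      push_cast; ring
    rw [hc] at h1
    unfold cg eB
    rw [if_pos hg.1, if_pos hpos']
    calc (1 - 2 * σ) * (Real.exp (-(2 * σ * (Δ + 1) * g.card)) * φ g)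
        ≤ (1 - σ) * (Real.exp (-(2 * σ * (Δ + 1) * g.card)) * φ g) :=
          mul_le_mul_of_nonneg_right (by linarith) (mul_nonneg (Real.exp_pos _).le hpos')
      _ ≤ (1 - σ) * (((1 + σ) ^ (nb (adB G B) g).card)⁻¹ * φ g) :=
          mul_le_mul_of_nonneg_left (mul_le_mul_of_nonneg_right h1 hpos') (by linarith)
      _ = _ := by ring
  · rw [mem_cnS] at hg
    have hn := nb_card_le G hg.1 hΔ
    have h1 := pow_le_exp_aux hσ0 hσ1 hn
    have hc : (2 * σ * (((Δ + 1) * g.card : ℕ) : ℝ)) = 2 * σ * (Δ + 1) * g.card := by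
      push_cast; ring
    rw [hc] at h1
    unfold cg eB
    rw [if_pos hg.1]
    split_ifs with h2
    · have h3 : 0 ≤ (1 - σ) * ((1 + σ) ^ (nb (adB G B) g).card)⁻¹ * φ g :=
        mul_nonneg (mul_nonneg (by linarith) (by positivity)) h2
      have h4 : 0 ≤ (1 + 2 * σ) * (Real.exp (2 * σ * (Δ + 1) * g.card) * |φ g|) := by positivity
      linarith
    · push Not at h2
      rw [abs_of_neg h2]
      have h3 : 0 ≤ -φ g := by linarith
      have h4 : (1 + σ) * (((1 - σ) ^ (nb (adB G B) g).card)⁻¹ * -φ g) ≤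
          (1 + 2 * σ) * (Real.exp (2 * σ * (Δ + 1) * g.card) * -φ g) := by
        refine mul_le_mul (by linarith) (mul_le_mul_of_nonneg_right h1 h3) ?_ (by linarith)
        exact mul_nonneg (inv_nonneg.2 (pow_nonneg (by linarith) _)) h3
      have h5 : (1 + σ) * ((1 - σ) ^ (nb (adB G B) g).card)⁻¹ * φ g =
          -((1 + σ) * (((1 - σ) ^ (nb (adB G B) g).card)⁻¹ * -φ g)) := by ring
      rw [h5]
      linarith

open scoped Classical in
/-- decomposition of an observable supported on the clique `T` -/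
theorem sum_obs (G : SimpleGraph V) (φ ψ : Finset V → ℝ) (B T : Finset V)
    (hT : ∀ b ∈ T, ∀ b' ∈ T, b ≠ b' → G.Adj b b')
    (hψ0 : ∀ β ⊆ B, Disjoint β T → ψ β = 0)
    (hψ : ∀ γ ⊆ B, ∀ β ⊆ B, Disjoint γ β → Disjoint β T → (∀ b ∈ γ, ∀ b' ∈ β, ¬ G.Adj b b') →
      ψ (γ ∪ β) = ψ γ * φ β) :
    ∑ β ∈ B.powerset, ψ β = ∑ γ ∈ cnS G B (fun γ => ¬ Disjoint γ T),
      ψ γ * ∑ R ∈ (B \ nb (adB G B) γ).powerset, φ R := by
  set Sel : Finset V → Finset V → Prop := fun β γ =>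
    γ ⊆ β ∧ ∀ a ∈ γ, ∀ c ∈ β \ γ, ¬ adB G B a c with hSel
  have h1 : ∀ β ∈ B.powerset, ψ β = ∑ γ ∈ cnS G B (fun γ => ¬ Disjoint γ T),
      if Sel β γ then ψ β else 0 := by
    intro β hβ
    rw [mem_powerset] at hβ
    by_cases hd : Disjoint β T
    · rw [hψ0 β hβ hd]
      simp
    · obtain ⟨t, htβ, htT⟩ := not_disjoint_iff.1 hd
      obtain ⟨g, hg⟩ := exists_comp (adB_symm G B) htβ
      rw [Finset.sum_eq_single g]
      · rw [if_pos ⟨hg.1, hg.2.2.2⟩]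
      · intro g' hg' hne
        rw [if_neg]
        intro h
        rw [mem_cnS] at hg'
        obtain ⟨t', ht', htT'⟩ := not_disjoint_iff.1 hg'.2.2
        have htg' : t ∈ g' := by
          by_contra hn
          have hne' : t' ≠ t := fun h2 => hn (h2 ▸ ht')
          exact h.2 t' ht' t (mem_sdiff.2 ⟨htβ, hn⟩) ⟨hT t' htT' t htT hne', hg'.1 ht', hβ htβ⟩
        exact hne (comp_unique ⟨h.1, htg', (conn_iff G hg'.1).2 hg'.2.1, h.2⟩ hg)
      · intro h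
        exfalso
        apply h
        rw [mem_cnS]
        exact ⟨hg.1.trans hβ, (conn_iff G (hg.1.trans hβ)).1 hg.2.2.1,
          not_disjoint_iff.2 ⟨t, hg.2.1, htT⟩⟩
  rw [Finset.sum_congr rfl h1, Finset.sum_comm]
  refine Finset.sum_congr rfl fun γ hγ => ?_
  rw [mem_cnS] at hγ
  obtain ⟨t', ht', htT'⟩ := not_disjoint_iff.1 hγ.2.2
  rw [← Finset.sum_filter, Finset.mul_sum]
  refine Finset.sum_bij' (fun β _ => β \ γ) (fun R _ => γ ∪ R) ?_ ?_ ?_ ?_ ?_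
  · intro β hβ
    rw [mem_filter, mem_powerset] at hβ
    rw [mem_powerset]
    intro x hx
    rw [mem_sdiff] at hx ⊢
    refine ⟨hβ.1 hx.1, fun hn => ?_⟩
    rw [nb, mem_filter] at hn
    rcases hn.2 with h2 | ⟨a, ha, h2⟩
    · exact hx.2 h2
    · exact hβ.2.2 a ha x (mem_sdiff.2 hx) h2
  · intro R hR
    rw [mem_powerset] at hR
    have hRg : ∀ x ∈ R, x ∉ γ ∧ ∀ a ∈ γ, ¬ adB G B a x := by
      intro x hx
      have h2 := (mem_sdiff.1 (hR hx)).2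
      rw [nb, mem_filter] at h2
      push Not at h2
      exact ⟨(h2 (mem_univ x)).1, (h2 (mem_univ x)).2⟩
    rw [mem_filter, mem_powerset]
    refine ⟨union_subset hγ.1 (hR.trans sdiff_subset), subset_union_left, fun a ha c hc => ?_⟩
    rw [mem_sdiff, mem_union] at hc
    rcases hc.1 with h2 | h2
    · exact absurd h2 hc.2
    · exact (hRg c h2).2 a ha
  · intro β hβ
    rw [mem_filter, mem_powerset] at hβ
    exact union_sdiff_of_subset hβ.2.1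
  · intro R hR
    rw [mem_powerset] at hR
    have hRg : ∀ x ∈ R, x ∉ γ := by
      intro x hx h3
      have h2 := (mem_sdiff.1 (hR hx)).2
      rw [nb, mem_filter] at h2
      exact h2 ⟨mem_univ x, Or.inl h3⟩
    ext x
    simp only [mem_union, mem_sdiff]
    constructor
    · rintro ⟨h2 | h2, h3⟩
      · exact absurd h2 h3
      · exact h2
    · intro hx
      exact ⟨Or.inr hx, hRg x hx⟩
  · intro β hβ
    rw [mem_filter, mem_powerset] at hβ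
    have hna : ∀ b ∈ γ, ∀ b' ∈ β \ γ, ¬ G.Adj b b' := fun b hb b' hb' hadj =>
      hβ.2.2 b hb b' hb' ⟨hadj, hγ.1 hb, hβ.1 (mem_sdiff.1 hb').1⟩
    have hdT : Disjoint (β \ γ) T := by
      rw [disjoint_left]
      intro x hx hxT
      have hne : t' ≠ x := fun h2 => (mem_sdiff.1 hx).2 (h2 ▸ ht')
      exact hna t' ht' x hx (hT t' htT' x hxT hne)
    rw [← hψ γ hγ.1 (β \ γ) (sdiff_subset.trans hβ.1) disjoint_sdiff hdT hna,
      union_sdiff_of_subset hβ.2.1]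

open scoped Classical in
/-- with an observable supported on the clique `T` -/
theorem gas_obs (G : SimpleGraph V) (φ Z ψ : Finset V → ℝ) (B T : Finset V) (σ : ℝ) (Δ : ℕ)
    (hφ0 : φ ∅ = 1)
    (hφ : ∀ γ ⊆ B, ∀ β ⊆ B, Disjoint γ β → (∀ b ∈ γ, ∀ b' ∈ β, ¬ G.Adj b b') →
      φ (γ ∪ β) = φ γ * φ β)
    (hZ : ∀ Λ ⊆ B, Z Λ = ∑ β ∈ Λ.powerset, φ β)
    (hpos : ∀ Λ ⊆ B, 0 < Z Λ)
    (hr : ∀ Λ ⊆ B, ∀ b ∈ B, b ∉ Λ → |Z (insert b Λ) - Z Λ| ≤ σ * Z Λ)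
    (hσ0 : 0 ≤ σ) (hσ1 : σ ≤ 1 / 8)
    (hΔ : ∀ b ∈ B, (nbr G B b).card ≤ Δ)
    (hT : ∀ b ∈ T, ∀ b' ∈ T, b ≠ b' → G.Adj b b')
    (hψ0 : ∀ β ⊆ B, Disjoint β T → ψ β = 0)
    (hψ : ∀ γ ⊆ B, ∀ β ⊆ B, Disjoint γ β → Disjoint β T → (∀ b ∈ γ, ∀ b' ∈ β, ¬ G.Adj b b') →
      ψ (γ ∪ β) = ψ γ * φ β) :
    |∑ β ∈ B.powerset, ψ β| ≤ Z B * ∑ γ ∈ cnS G B (fun γ => ¬ Disjoint γ T),
        Real.exp (2 * σ * (Δ + 1) * γ.card) * |ψ γ| := by
  have h0 : eB B φ ∅ = 1 := by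
    unfold eB
    rw [if_pos (empty_subset B), hφ0]
  have hst := eB_step hZ hpos hr hσ0
  rw [sum_obs G φ ψ B T hT hψ0 hψ, Finset.mul_sum]
  refine (Finset.abs_sum_le_sum_abs _ _).trans (Finset.sum_le_sum fun γ hγ => ?_)
  rw [mem_cnS] at hγ
  rw [← hZ _ sdiff_subset, abs_mul, abs_of_pos (hpos _ sdiff_subset)]
  have h1 := Vale.Agent.P050.R4.H998.ratio_le h0 hσ0 (by linarith : σ < 1) hst B
    (nb (adB G B) γ)
  rw [ZZ_eB hZ, ZZ_eB hZ, inter_self, inter_eq_left.2 sdiff_subset,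
    div_le_iff₀ (hpos B (Subset.refl B))] at h1
  have h2 := pow_le_exp_aux hσ0 hσ1 (nb_card_le G hγ.1 hΔ)
  have hc : (2 * σ * (((Δ + 1) * γ.card : ℕ) : ℝ)) = 2 * σ * (Δ + 1) * γ.card := by
    push_cast; ring
  rw [hc] at h2
  have h3 : Z (B \ nb (adB G B) γ) ≤ Real.exp (2 * σ * (Δ + 1) * γ.card) * Z B :=
    h1.trans (mul_le_mul_of_nonneg_right h2 (hpos B (Subset.refl B)).le)
  calc |ψ γ| * Z (B \ nb (adB G B) γ) ≤ |ψ γ| * (Real.exp (2 * σ * (Δ + 1) * γ.card) * Z B) :=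
        mul_le_mul_of_nonneg_left h3 (abs_nonneg _)
    _ = _ := by ring

end Vale.Agent.P050.Dense
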